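import Vale.Agent.Lib.P027.Quadric

/-!
# P027: no polynomial of total degree at most two defines `ℤ` existentially in `ℚ`

Let `A = {x ∈ ℚ : ∃ y ∈ ℚ^m, g(x, y) = 0}` with `g` of total degree at most `2`.  If `A` has an
isolated point then `A` has at most two elements.  In particular a set of integers defined in this
way has at most two elements, and `A ≠ ℤ`.
-/

namespace Vale.Agent.Results.P027.QuadraticNoGo

open Vale.Agent.Lib.P027 MvPolynomial

theorem triple {m : ℕ} (g : MvPolynomial (Fin (m + 1)) ℚ) (hg : g.totalDegree ≤ 2) (A : Set ℚ)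
    (hA : ∀ x, x ∈ A ↔ ∃ y : Fin m → ℚ, eval (Fin.cons x y : Fin (m + 1) → ℚ) g = 0)
    (x₁ : ℚ) (h₁ : x₁ ∈ A) (ε : ℚ) (hε : 0 < ε) (hiso : ∀ a ∈ A, |a - x₁| < ε → a = x₁)
    (x₀ : ℚ) (h₀ : x₀ ∈ A) (x₂ : ℚ) (h₂ : x₂ ∈ A) : x₀ = x₁ ∨ x₂ = x₁ ∨ x₀ = x₂ := by
  by_contra hcon
  simp only [not_or] at hcon
  obtain ⟨y₀, hy₀⟩ := (hA x₀).1 h₀
  obtain ⟨y₁, hy₁⟩ := (hA x₁).1 h₁
  obtain ⟨y₂, hy₂⟩ := (hA x₂).1 h₂
  refine core g hg 0 (Fin.cons x₀ y₀) (Fin.cons x₁ y₁) (Fin.cons x₂ y₂) hy₀ hy₁ hy₂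
    (by simpa using hcon.1) (by simpa using hcon.2.2) (by simpa using fun h => hcon.2.1 h.symm)
    ε hε ?_
  intro Q hQ hlt
  have hQA : Q 0 ∈ A := (hA (Q 0)).2 ⟨Fin.tail Q, by rw [Fin.cons_self_tail]; exact hQ⟩
  simpa using hiso (Q 0) hQA (by simpa using hlt)

theorem encard_le {A : Set ℚ} (x₁ : ℚ)
    (h : ∀ x₀ ∈ A, ∀ x₂ ∈ A, x₀ = x₁ ∨ x₂ = x₁ ∨ x₀ = x₂) : A.encard ≤ 2 := by
  by_cases hs : A ⊆ {x₁}
  · calc A.encard ≤ ({x₁} : Set ℚ).encard := Set.encard_le_encard hs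
      _ = 1 := Set.encard_singleton _
      _ ≤ 2 := by norm_num
  · obtain ⟨x', hx', hne⟩ := Set.not_subset.1 hs
    have hne' : x' ≠ x₁ := by simpa using hne
    have hs2 : A ⊆ {x₁, x'} := by
      intro x hx
      rcases h x' hx' x hx with h1 | h1 | h1
      · exact absurd h1 hne'
      · simp [h1]
      · simp [h1]
    exact (Set.encard_le_encard hs2).trans (Set.encard_pair (Ne.symm hne')).le

theorem totalDegree_map_le {σ : Type} (g : MvPolynomial σ ℤ) :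
    (map (Int.castRingHom ℚ) g).totalDegree ≤ g.totalDegree :=
  Finset.sup_mono (support_map_subset _ _)

/-- (1) A subset of `ℚ` defined existentially by one rational polynomial of total degree at most
`2` and having an isolated point has at most two elements.  (2) For integer coefficients: if such a
set consists of integers it has at most two elements; in particular it is not `ℤ`. -/
theorem result :
    (∀ (m : ℕ) (g : MvPolynomial (Fin (m + 1)) ℚ), g.totalDegree ≤ 2 →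
      ∀ A : Set ℚ,
        (∀ x, x ∈ A ↔ ∃ y : Fin m → ℚ, eval (Fin.cons x y : Fin (m + 1) → ℚ) g = 0) →
        (∃ x₁ ∈ A, ∃ ε : ℚ, 0 < ε ∧ ∀ a ∈ A, |a - x₁| < ε → a = x₁) → A.encard ≤ 2) ∧
    (∀ (m : ℕ) (g : MvPolynomial (Fin (m + 1)) ℤ), g.totalDegree ≤ 2 →
      ∀ A : Set ℚ,
        (∀ x, x ∈ A ↔ ∃ y : Fin m → ℚ, aeval (Fin.cons x y : Fin (m + 1) → ℚ) g = 0) →
        (A ⊆ Set.range (fun n : ℤ => (n : ℚ)) → A.encard ≤ 2) ∧
          A ≠ Set.range (fun n : ℤ => (n : ℚ))) := by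
  have part1 : ∀ (m : ℕ) (g : MvPolynomial (Fin (m + 1)) ℚ), g.totalDegree ≤ 2 →
      ∀ A : Set ℚ,
        (∀ x, x ∈ A ↔ ∃ y : Fin m → ℚ, eval (Fin.cons x y : Fin (m + 1) → ℚ) g = 0) →
        (∃ x₁ ∈ A, ∃ ε : ℚ, 0 < ε ∧ ∀ a ∈ A, |a - x₁| < ε → a = x₁) → A.encard ≤ 2 := by
    intro m g hg A hA ⟨x₁, h₁, ε, hε, hiso⟩
    exact encard_le x₁ (fun x₀ h₀ x₂ h₂ => triple g hg A hA x₁ h₁ ε hε hiso x₀ h₀ x₂ h₂)
  have part2 : ∀ (m : ℕ) (g : MvPolynomial (Fin (m + 1)) ℤ), g.totalDegree ≤ 2 →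
      ∀ A : Set ℚ,
        (∀ x, x ∈ A ↔ ∃ y : Fin m → ℚ, aeval (Fin.cons x y : Fin (m + 1) → ℚ) g = 0) →
        A ⊆ Set.range (fun n : ℤ => (n : ℚ)) → A.encard ≤ 2 := by
    intro m g hg A hA hsub
    by_cases hne : A.Nonempty
    · obtain ⟨x₁, h₁⟩ := hne
      refine part1 m (map (Int.castRingHom ℚ) g) ((totalDegree_map_le g).trans hg) A ?_
        ⟨x₁, h₁, 1, one_pos, ?_⟩
      · intro x
        rw [hA x]
        refine exists_congr fun y => ?_
        rw [eval_map, aeval_def]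
        rfl
      · intro a ha hlt
        obtain ⟨n, rfl⟩ := hsub ha
        obtain ⟨k, rfl⟩ := hsub h₁
        have h3 : |((n - k : ℤ) : ℚ)| < 1 := by
          push_cast
          exact hlt
        have h4 : |n - k| < 1 := by exact_mod_cast h3
        have h5 : n - k = 0 := Int.abs_lt_one_iff.1 h4
        have h6 : n = k := by omega
        rw [h6]
    · rw [Set.not_nonempty_iff_eq_empty.1 hne]
      simp
  refine ⟨part1, fun m g hg A hA => ⟨part2 m g hg A hA, ?_⟩⟩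
  intro hEq
  have h := part2 m g hg A hA hEq.le
  rw [hEq] at h
  have hinf : (Set.range (fun n : ℤ => (n : ℚ))).Infinite :=
    Set.infinite_range_of_injective (fun a b hab => by exact_mod_cast hab)
  rw [hinf.encard_eq] at h
  simp at h

end Vale.Agent.Results.P027.QuadraticNoGo
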